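import Vale.Agent.P223.H959.Sharp

/-! P223, modifications: the twisted Kaehler-Einstein metrics with both Ricci bounds and their exact
volume, and the limit of the volume. -/

open scoped Manifold ContDiff ComplexOrder Matrix Topology
open MeasureTheory Filter

namespace Vale.Agent.P223.R2.H187

open Vale.Agent.P223.H959 Vale.Agent.P272.K Vale.Agent.P272.K.INT

section
variable {m : ℕ} {X : Type} [TopologicalSpace X] [T2Space X] [CompactSpace X]
  [ChartedSpace (Cm m) X] [IsManifold 𝓘(ℂ, Cm m) ω X]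

/-- Yau's metrics, in the real charts, with both Ricci bounds and with their exact volume. -/
theorem yau_all (hB : Blocks) (hTot : SpecTot) [MeasurableSpace X] [BorelSpace X]
    {w : Chart m X → Cm m → Matrix (Fin m) (Fin m) ℂ} (hw : IsKahler w) (hnef : NefCanonical w 0)
    {φ : Chart m X → Cm m → ℝ} (hφ : IsCanonicalMetric φ) (eta : ℝ) (heta : 0 < eta) :
    ∃ g0 μ0, K.Herm (stdJ m) (realAtlas m X) g0 ∧ K.Kah (stdJ m) (realAtlas m X) g0 ∧
      K.RicLe (realAtlas m X) g0 (realG w) eta ∧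
      (∀ a p x, K.At (realAtlas m X a) p x → (g0 a x + K.ric (g0 a) x).PosSemidef) ∧
      K.Vol (realAtlas m X) g0 μ0 ∧
      μ0 Set.univ = ENNReal.ofReal (2 ^ m * PP φ w eta) := by
  obtain ⟨ψ, hψ, hpos, heq⟩ := Vale.Agent.P272.K.AMP.NF.ke_of_nef
    (Vale.Agent.P272.K.aubinYau m X) hw le_rfl hnef eta heta
  have hχ := Vale.Agent.P272.K.isKahler_twist hψ hw eta hpos
  set χ : Chart m X → Cm m → Matrix (Fin m) (Fin m) ℂ :=
    fun e z => cHess (ψ e) z + (eta : ℂ) • w e z with hχd
  have hherm := hB.herm m X χ hχ.toIsHermitian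
  obtain ⟨μ, hμ⟩ := hB.vol _ (stdJ m) X (realAtlas m X) (realG χ) (hB.atl m X) hherm
  have hsrc : ∀ a p x, K.At (realAtlas m X a) p x →
      p ∈ (chartAt (Cm m) a).source ∧ (toReal m).symm x = chartAt (Cm m) a p := by
    intro a p x hx
    have hp : p ∈ (chartAt (Cm m) a).source := by
      have := hx.1
      simpa [realAtlas] using this
    refine ⟨hp, ?_⟩
    rw [← hx.2]
    exact (toReal m).symm_apply_apply _
  have key : ∀ a p x, K.At (realAtlas m X a) p x →
      realG χ a x + K.ric (realG χ a) x = eta • realG w a x := by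
    intro a p x hx
    obtain ⟨hp, hx2⟩ := hsrc a p x hx
    rw [hB.ric m X χ hχ a p x hx]
    have h1 := heq (chartAt (Cm m) a) p ⟨chart_mem_atlas _ a, hp⟩
    unfold realG
    rw [hx2, ← hB.alg.add, ← hB.alg.smul, ← h1]
    exact congrArg realM (add_comm _ _)
  refine ⟨realG χ, μ, hherm, hB.kah m X χ hχ, fun a p x hx => ?_, fun a p x hx => ?_, hμ, ?_⟩
  · have h1 : eta • realG w a x - realG χ a x - K.ric (realG χ a) x = 0 := by
      rw [← key a p x hx]
      abel
    rw [h1]
    exact Matrix.PosSemidef.zero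
  · rw [key a p x hx]
    obtain ⟨hp, hx2⟩ := hsrc a p x hx
    refine Matrix.PosSemidef.smul (hB.alg.posSemidef m _ ?_) heta.le
    rw [hx2]
    exact (hw.posDef _ p ⟨chart_mem_atlas _ a, hp⟩).posSemidef
  · have hwc := P272.K.INT.IsKahler.isClosedForm hw
    have hdens := ((isClosedForm_canonical hψ).add (hwc.smul (eta : ℂ))).isDensity
    have hint : IsIntegral (fun e z => (χ e z).det.re) (PP φ w eta) := by
      rw [PP_eq hφ hψ hwc]
      exact hdens.isIntegral
    exact hTot m X χ μ (PP φ w eta) hχ.toIsHermitian hμ hint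

omit [CompactSpace X] [T2Space X] in
/-- the limit of the volumes -/
theorem tendsto_PP [T2Space X] [CompactSpace X]
    {w : Chart m X → Cm m → Matrix (Fin m) (Fin m) ℂ} (hw : IsKahler w)
    {φ : Chart m X → Cm m → ℝ} (hφ : IsCanonicalMetric φ) {I : ℝ}
    (hI : IsIntegral (fun e z => (cHess (φ e) z).det.re) I) :
    Tendsto (fun t : ℝ => ENNReal.ofReal (2 ^ m * PP φ w t)) (𝓝[>] 0)
      (𝓝 (ENNReal.ofReal (2 ^ m * I))) := by
  have hwc := P272.K.INT.IsKahler.isClosedForm hw
  have h0 : I = PP φ w 0 := by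
    rw [← intX_eq_of_isIntegral hI]
    unfold PP
    refine intX_congr fun e x _ => ?_
    rw [Complex.ofReal_zero, zero_smul, add_zero]
  rw [h0]
  have h1 : ContinuousAt (PP φ w) 0 :=
    ((PP_hasDerivAt hφ hwc 0).differentiableAt.hasDerivAt).continuousAt
  exact (ENNReal.continuous_ofReal.tendsto _).comp
    ((h1.tendsto.const_mul (2 ^ m)).mono_left nhdsWithin_le_nhds)

end

end Vale.Agent.P223.R2.H187
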