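import Vale.Agent.P223.H959.All
import Vale.Agent.P223.H959.L2
import Vale.Agent.P223.H209.Leb
import Vale.Agent.P223.R2.H187.YauAll

/-! P223, modifications, row C1: on a compact connected Kaehler manifold with nef canonical bundle
there are metrics with `Ric ≥ -g` whose volume is arbitrarily close to the sharp lower bound. -/

open scoped Manifold ContDiff ComplexOrder Matrix Topology
open MeasureTheory Filter

namespace Vale.Agent.P223.R2.H187

open Vale.Agent.P223.H959

/-- ROW C1 -/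
theorem yauV {m : ℕ} (_hm : 2 ≤ m) {X : Type} [TopologicalSpace X] [T2Space X] [CompactSpace X]
    [ConnectedSpace X] [MeasurableSpace X] [BorelSpace X]
    [ChartedSpace (P272.K.Cm m) X] [IsManifold 𝓘(ℂ, P272.K.Cm m) ω X]
    {w : P272.K.Chart m X → P272.K.Cm m → Matrix (Fin m) (Fin m) ℂ} (hw : P272.K.IsKahler w)
    (hnef : P272.K.NefCanonical w 0) {φ : P272.K.Chart m X → P272.K.Cm m → ℝ}
    (hφ : P272.K.IsCanonicalMetric φ) {I : ℝ}
    (hI : P272.K.IsIntegral (fun e z => (P272.K.cHess (φ e) z).det.re) I)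
    (eps : ℝ) (heps : 0 < eps) :
    ∃ g0 μ0, K.Herm (stdJ m) (realAtlas m X) g0 ∧
      (∀ a p x, K.At (realAtlas m X a) p x → (g0 a x + K.ric (g0 a) x).PosSemidef) ∧
      K.Vol (realAtlas m X) g0 μ0 ∧
      μ0 Set.univ ≤ ENNReal.ofReal (2 ^ m * I) + ENNReal.ofReal eps := by
  have h1 := tendsto_PP hw hφ hI
  have h2 : ENNReal.ofReal (2 ^ m * I) < ENNReal.ofReal (2 ^ m * I) + ENNReal.ofReal eps :=
    ENNReal.lt_add_right ENNReal.ofReal_ne_top (ENNReal.ofReal_pos.2 heps).ne'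
  have h3 := (h1.eventually (gt_mem_nhds h2)).and self_mem_nhdsWithin
  obtain ⟨eta, hlt, heta⟩ := h3.exists
  obtain ⟨g0, μ0, a1, _, _, a4, a5, a6⟩ :=
    yau_all blocks (specTot_of H209.specLeb) hw hnef hφ eta heta
  exact ⟨g0, μ0, a1, a4, a5, by rw [a6]; exact hlt.le⟩

end Vale.Agent.P223.R2.H187
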